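import Vale.Agent.TM.Cmd

/-! A first-order language of bit-string expressions over unary numbers; every expression is
computed by a `TM2` machine in polynomial time. -/

namespace Vale.Agent.TM

open Turing Function

/-- Bit-string expressions. Numbers are lengths of strings. -/
inductive Ex
  | lit (l : List Bool)
  | var (i : ℕ)
  | app (a b : Ex)
  | sub (a b : Ex)
  | rep (a b : Ex)
  | each (a b : Ex)

/-- Value at binding level `d` in environment `v`; `each` binds variable number `d`. -/
def Ex.eval : Ex → ℕ → (ℕ → ℕ) → List Bool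
  | .lit l, _, _ => l
  | .var i, _, v => List.replicate (v i) true
  | .app a b, d, v => a.eval d v ++ b.eval d v
  | .sub a b, d, v => List.replicate ((a.eval d v).length - (b.eval d v).length) true
  | .rep a b, d, v => (List.range (a.eval d v).length).flatMap fun _ => b.eval d v
  | .each a b, d, v =>
      (List.range (a.eval d v).length).flatMap fun y => b.eval (d + 1) (update v d y)

def pushList (k : ℕ) : List Bool → Cmd
  | [] => .skip
  | b :: l => .seq (.push k b) (pushList k l)

def Ex.cmp : Ex → ℕ → ℕ → ℕ → Cmd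
  | .lit l, _, _, t => pushList (2 * t + 1) l
  | .var i, _, c, t => .seq
      (.loop (2 * i) (.seq (.pop (2 * i)) (.seq (.push (2 * c + 1) true) (.push (2 * t + 1) true))))
      (.loop (2 * c + 1) (.seq (.pop (2 * c + 1)) (.push (2 * i) true)))
  | .app a b, d, c, t => .seq (a.cmp d c t) (b.cmp d c t)
  | .sub a b, d, c, t => .seq (.seq (a.cmp d (c + 1) c) (b.cmp d (c + 2) (c + 1))) (.seq
      (.loop (2 * (c + 1) + 1) (.seq (.pop (2 * (c + 1) + 1)) (.pop (2 * c + 1))))
      (.loop (2 * c + 1) (.seq (.pop (2 * c + 1)) (.push (2 * t + 1) true))))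
  | .rep a b, d, c, t => .seq (a.cmp d (c + 1) c)
      (.loop (2 * c + 1) (.seq (.pop (2 * c + 1)) (b.cmp d (c + 1) t)))
  | .each a b, d, c, t => .seq (a.cmp d (c + 1) c) (.seq
      (.loop (2 * c + 1) (.seq (.pop (2 * c + 1))
        (.seq (b.cmp (d + 1) (c + 1) t) (.push (2 * d) true))))
      (.loop (2 * d) (.pop (2 * d))))

/-- State with unary variables `v` on even stacks and work stacks `w` on odd stacks. -/
def mk (v : ℕ → ℕ) (w : ℕ → List Bool) : St :=
  fun k => if k % 2 = 0 then List.replicate (v (k / 2)) true else w (k / 2)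

@[simp] lemma mk_even (v w i) : mk v w (2 * i) = List.replicate (v i) true := by simp [mk]

@[simp] lemma mk_odd (v w j) : mk v w (2 * j + 1) = w j := by
  have h1 : (2 * j + 1) % 2 ≠ 0 := by omega
  have h2 : (2 * j + 1) / 2 = j := by omega
  simp only [mk, if_neg h1, h2]

lemma update_mk_odd (v w j l) : update (mk v w) (2 * j + 1) l = mk v (update w j l) := by
  funext k
  rcases Nat.even_or_odd' k with ⟨i, rfl | rfl⟩
  · rw [update_of_ne (by omega)]; simp
  · by_cases h : i = j
    · subst h; simp
    · rw [update_of_ne (by omega)]; simp [update_of_ne h]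

lemma update_mk_even (v w i m) :
    update (mk v w) (2 * i) (List.replicate m true) = mk (update v i m) w := by
  funext k
  rcases Nat.even_or_odd' k with ⟨j, rfl | rfl⟩
  · by_cases h : j = i
    · subst h; simp
    · rw [update_of_ne (by omega)]; simp [update_of_ne h]
  · rw [update_of_ne (by omega)]; simp

lemma pushW (v w j b) : Exec (.push (2 * j + 1) b) (mk v w) (mk v (update w j (b :: w j))) 0 := by
  have := Exec.push (2 * j + 1) b (mk v w)
  rwa [mk_odd, update_mk_odd] at this

lemma popW (v w j) : Exec (.pop (2 * j + 1)) (mk v w) (mk v (update w j (w j).tail)) 0 := by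
  have := Exec.pop (2 * j + 1) (mk v w)
  rwa [mk_odd, update_mk_odd] at this

lemma pushV (v w i) : Exec (.push (2 * i) true) (mk v w) (mk (update v i (v i + 1)) w) 0 := by
  have := Exec.push (2 * i) true (mk v w)
  rwa [mk_even, ← List.replicate_succ, update_mk_even] at this

lemma popV (v w i) : Exec (.pop (2 * i)) (mk v w) (mk (update v i (v i - 1)) w) 0 := by
  have := Exec.pop (2 * i) (mk v w)
  rwa [mk_even, List.tail_replicate, update_mk_even] at this

lemma Exec.cast {p : Cmd} {v v' v₁ v₁' : ℕ → ℕ} {w w' w₁ w₁' : ℕ → List Bool} {t t' : ℕ}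
    (h : Exec p (mk v w) (mk v' w') t) (h1 : v₁ = v) (h2 : w₁ = w) (h3 : v₁' = v')
    (h4 : w₁' = w') (ht : t ≤ t') : Exec p (mk v₁ w₁) (mk v₁' w₁') t' := by
  subst h1 h2 h3 h4
  exact h.mono ht

lemma loop_exec {k : ℕ} {p : Cmd} {T : ℕ} : ∀ (M : ℕ) (σ : ℕ → St),
    (∀ y < M, σ y k ≠ []) → σ M k = [] → (∀ y < M, Exec p (σ y) (σ (y + 1)) T) →
    Exec (.loop k p) (σ 0) (σ M) (M * (T + 1) + 1)
  | 0, σ, _, h2, _ => (Exec.loop0 h2).mono (by omega)
  | M + 1, σ, h1, h2, h3 => by
    have ih := loop_exec M (fun y => σ (y + 1)) (fun y hy => h1 _ (by omega)) h2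
      (fun y hy => h3 _ (by omega))
    exact (Exec.loop1 (h1 0 (by omega)) (h3 0 (by omega)) ih).mono (by nlinarith)

lemma pushList_exec (v : ℕ → ℕ) (t : ℕ) : ∀ (l : List Bool) (w : ℕ → List Bool),
    Exec (pushList (2 * t + 1) l) (mk v w) (mk v (update w t (l.reverse ++ w t))) 0
  | [], w => by simpa [pushList] using Exec.skip _
  | b :: l, w => by
    have := (pushW v w t b).seq (pushList_exec v t l _)
    exact this.cast rfl rfl rfl (by simp) le_rfl

lemma length_flatMap_le {α : Type} (M T : ℕ) (f : ℕ → List α) (h : ∀ y < M, (f y).length ≤ T) :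
    ((List.range M).flatMap f).length ≤ M * T := by
  induction M with
  | zero => simp
  | succ M ih =>
    rw [List.range_succ, List.flatMap_append]
    have := ih (fun y hy => h y (by omega))
    have h2 := h M (by omega)
    simp only [List.length_append, List.flatMap_cons, List.flatMap_nil, List.append_nil]
    nlinarith

/-- Correctness statement of the compiler with bound `P`. -/
def Good (e : Ex) (P : ℕ → ℕ) : Prop :=
  ∀ (B d c t : ℕ) (v : ℕ → ℕ) (w : ℕ → List Bool), (∀ i, v i ≤ B) → (∀ i, d ≤ i → v i = 0) →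
    (∀ j, c ≤ j → w j = []) → t < c → (e.eval d v).length ≤ P B ∧
    Exec (e.cmp d c t) (mk v w) (mk v (update w t ((e.eval d v).reverse ++ w t))) (P B)

lemma good_var (i : ℕ) : Good (.var i) (fun B => 2 * B + 2) := by
  intro B d c t v w hB _ hw ht
  beta_reduce
  have hi := hB i
  have hc := hw c le_rfl
  have htc : t ≠ c := by omega
  refine ⟨by simp [Ex.eval]; omega, ?_⟩
  have h1 := loop_exec (k := 2 * i) (T := 0)
    (p := .seq (.pop (2 * i)) (.seq (.push (2 * c + 1) true) (.push (2 * t + 1) true))) (v i)
    (fun y => mk (update v i (v i - y))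
      (update (update w c (List.replicate y true)) t (List.replicate y true ++ w t)))
    (fun y hy => by simp; omega) (by simp) (fun y hy => by
      refine ((popV _ _ _).seq ((pushW _ _ _ _).seq (pushW _ _ _ _))).cast rfl rfl ?_ ?_ le_rfl
      · simp [Nat.sub_add_eq]
      · funext j
        by_cases h1 : j = t <;> by_cases h2 : j = c <;>
          simp [update_apply, h1, h2, htc, htc.symm, List.replicate_succ])
  have h2 := loop_exec (k := 2 * c + 1) (T := 0)
    (p := .seq (.pop (2 * c + 1)) (.push (2 * i) true)) (v i)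
    (fun y => mk (update v i y)
      (update (update w c (List.replicate (v i - y) true)) t (List.replicate (v i) true ++ w t)))
    (fun y hy => by simp [update_apply, htc.symm]; omega) (by simp [update_apply, htc.symm])
    (fun y hy => by
      refine ((popW _ _ _).seq (pushV _ _ _)).cast rfl rfl ?_ ?_ le_rfl
      · simp
      · funext j
        by_cases h1 : j = t <;> by_cases h2 : j = c <;>
          simp [update_apply, h1, h2, htc, htc.symm, Nat.sub_add_eq])
  simp only [Nat.sub_self, Nat.sub_zero] at h1 h2
  refine (h1.seq h2).cast (by simp) ?_ (by simp) ?_ (by omega)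
  · funext j
    by_cases h1 : j = t <;> by_cases h2 : j = c <;> simp [h1, h2, htc, htc.symm, hc]
  · funext j
    by_cases h1 : j = t <;> by_cases h2 : j = c <;>
      simp [update_apply, h1, h2, htc, htc.symm, hc, Ex.eval]

lemma good_app {a b : Ex} {P Q : ℕ → ℕ} (ha : Good a P) (hb : Good b Q) :
    Good (.app a b) (fun B => P B + Q B) := by
  intro B d c t v w hB hv hw ht
  beta_reduce
  obtain ⟨l1, e1⟩ := ha B d c t v w hB hv hw ht
  obtain ⟨l2, e2⟩ := hb B d c t v (update w t ((a.eval d v).reverse ++ w t)) hB hv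
    (fun j hj => by rw [update_of_ne (by omega)]; exact hw j hj) ht
  refine ⟨by simp [Ex.eval]; omega, ?_⟩
  exact (e1.seq e2).cast rfl rfl rfl (by simp [Ex.eval]) le_rfl

lemma good_sub {a b : Ex} {P Q : ℕ → ℕ} (ha : Good a P) (hb : Good b Q) :
    Good (.sub a b) (fun B => 2 * P B + 2 * Q B + 2) := by
  intro B d c t v w hB hv hw ht
  beta_reduce
  have hc := hw c le_rfl
  have hc1 := hw (c + 1) (by omega)
  have htc : t ≠ c := by omega
  have htc1 : t ≠ c + 1 := by omega
  obtain ⟨l1, e1⟩ := ha B d (c + 1) c v w hB hv (fun j hj => hw j (by omega)) (by omega)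
  obtain ⟨l2, e2⟩ := hb B d (c + 2) (c + 1) v (update w c ((a.eval d v).reverse ++ w c)) hB hv
    (fun j hj => by rw [update_of_ne (by omega)]; exact hw j (by omega)) (by omega)
  refine ⟨by simp [Ex.eval]; omega, ?_⟩
  generalize hx : (a.eval d v).reverse = x at e1 e2
  generalize hz : (b.eval d v).reverse = z at e2
  have hx' : (a.eval d v).length = x.length := by rw [← hx]; simp
  have hz' : (b.eval d v).length = z.length := by rw [← hz]; simp
  have h1 := loop_exec (k := 2 * (c + 1) + 1) (T := 0)
    (p := .seq (.pop (2 * (c + 1) + 1)) (.pop (2 * c + 1))) z.length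
    (fun y => mk v (update (update w c (x.drop y)) (c + 1) (z.drop y)))
    (fun y hy => by simp; omega) (by simp) (fun y hy => by
      refine ((popW _ _ _).seq (popW _ _ _)).cast rfl rfl rfl ?_ le_rfl
      funext j
      by_cases h1 : j = c + 1 <;> by_cases h2 : j = c <;> simp [update_apply, h1, h2])
  have h2 := loop_exec (k := 2 * c + 1) (T := 0)
    (p := .seq (.pop (2 * c + 1)) (.push (2 * t + 1) true)) (x.length - z.length)
    (fun y => mk v (update (update w c (x.drop (z.length + y))) t (List.replicate y true ++ w t)))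
    (fun y hy => by simp [update_apply, htc.symm]; omega)
    (by simp [update_apply, htc.symm]; omega)
    (fun y hy => by
      refine ((popW _ _ _).seq (pushW _ _ _ _)).cast rfl rfl rfl ?_ le_rfl
      funext j
      by_cases h1 : j = t <;> by_cases h2 : j = c <;>
        simp [update_apply, h1, h2, htc, htc.symm, List.replicate_succ, Nat.add_assoc])
  have h1' := h1.cast (v₁ := v) (v₁' := v)
    (w₁ := update (update w c (x ++ w c)) (c + 1) (z ++ update w c (x ++ w c) (c + 1)))
    (w₁' := update (update w c (x.drop (z.length + 0))) t (List.replicate 0 true ++ w t))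
    rfl (by simp [hc, hc1]) rfl (by
      funext j
      by_cases h1 : j = t <;> by_cases h2 : j = c <;> by_cases h3 : j = c + 1 <;>
        simp [update_apply, h1, h2, h3, htc, htc.symm, htc1, htc1.symm, hc1]) le_rfl
  refine ((e1.seq e2).seq (h1'.seq h2)).cast rfl rfl rfl ?_ (by omega)
  funext j
  have : x.length ≤ z.length + (x.length - z.length) := by omega
  by_cases h1 : j = t <;> by_cases h2 : j = c <;>
    simp [update_apply, h1, h2, htc, htc.symm, Ex.eval, hx', hz', hc, this]

lemma good_rep {a b : Ex} {P Q : ℕ → ℕ} (ha : Good a P) (hb : Good b Q) :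
    Good (.rep a b) (fun B => P B + (P B * (Q B + 1) + 1)) := by
  intro B d c t v w hB hv hw ht
  beta_reduce
  have hc := hw c le_rfl
  have htc : t ≠ c := by omega
  obtain ⟨l1, e1⟩ := ha B d (c + 1) c v w hB hv (fun j hj => hw j (by omega)) (by omega)
  have hb' := fun w' (hw' : ∀ j, c + 1 ≤ j → w' j = []) =>
    hb B d (c + 1) t v w' hB hv hw' (by omega)
  have l2 := (hb' w (fun j hj => hw j (by omega))).1
  have l3 := length_flatMap_le (a.eval d v).length (Q B) (fun _ => b.eval d v) (fun _ _ => l2)
  have l4 : (a.eval d v).length * (Q B + 1) ≤ P B * (Q B + 1) := Nat.mul_le_mul_right _ l1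
  refine ⟨by simp only [Ex.eval]; nlinarith, ?_⟩
  generalize hx : (a.eval d v).reverse = x at e1
  have hx' : (a.eval d v).length = x.length := by rw [← hx]; simp
  have h1 := loop_exec (k := 2 * c + 1) (T := Q B)
    (p := .seq (.pop (2 * c + 1)) (b.cmp d (c + 1) t)) x.length
    (fun y => mk v (update (update w c (x.drop y)) t
      (((List.range y).flatMap fun _ => b.eval d v).reverse ++ w t)))
    (fun y hy => by simp [update_apply, htc.symm]; omega) (by simp [update_apply, htc.symm])
    (fun y hy => by
      refine ((popW _ _ _).seq (hb' _ ?_).2).cast rfl rfl rfl ?_ (by omega)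
      · intro j hj
        rw [update_of_ne (by omega), update_of_ne (by omega), update_of_ne (by omega)]
        exact hw j (by omega)
      · funext j
        by_cases h1 : j = t <;> by_cases h2 : j = c <;>
          simp [update_apply, h1, h2, htc, htc.symm, List.range_succ])
  have h1' := h1.cast (v₁ := v) (v₁' := v) (w₁ := update w c (x ++ w c))
    (w₁' := update w t (((Ex.rep a b).eval d v).reverse ++ w t)) rfl (by
      funext j
      by_cases h1 : j = t <;> by_cases h2 : j = c <;>
        simp [update_apply, h1, h2, htc, htc.symm, hc]) rfl (by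
      funext j
      by_cases h1 : j = t <;> by_cases h2 : j = c <;>
        simp [update_apply, h1, h2, htc, htc.symm, hc, Ex.eval, hx']) le_rfl
  rw [← hx'] at h1'
  exact (e1.seq h1').mono (by omega)

lemma good_each {a b : Ex} {P Q : ℕ → ℕ} (ha : Good a P) (hb : Good b Q) :
    Good (.each a b) (fun B => P B + ((P B * (Q (B + P B) + 1) + 1) + (P B + 1))) := by
  intro B d c t v w hB hv hw ht
  beta_reduce
  have hc := hw c le_rfl
  have hd := hv d le_rfl
  have htc : t ≠ c := by omega
  obtain ⟨l1, e1⟩ := ha B d (c + 1) c v w hB hv (fun j hj => hw j (by omega)) (by omega)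
  have hb' := fun y (hy : y < (a.eval d v).length) w' (hw' : ∀ j, c + 1 ≤ j → w' j = []) =>
    hb (B + P B) (d + 1) (c + 1) t (update v d y) w' (fun i => by
      have := hB i
      rw [update_apply]; split_ifs <;> omega) (fun i hi => by
      rw [update_of_ne (by omega)]; exact hv i (by omega)) hw' (by omega)
  have l3 := length_flatMap_le (a.eval d v).length (Q (B + P B))
    (fun y => b.eval (d + 1) (update v d y))
    (fun y hy => (hb' y hy w (fun j hj => hw j (by omega))).1)
  have l4 : (a.eval d v).length * (Q (B + P B) + 1) ≤ P B * (Q (B + P B) + 1) :=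
    Nat.mul_le_mul_right _ l1
  refine ⟨by simp only [Ex.eval]; nlinarith, ?_⟩
  generalize hx : (a.eval d v).reverse = x at e1
  have hx' : (a.eval d v).length = x.length := by rw [← hx]; simp
  have h1 := loop_exec (k := 2 * c + 1) (T := Q (B + P B))
    (p := .seq (.pop (2 * c + 1)) (.seq (b.cmp (d + 1) (c + 1) t) (.push (2 * d) true))) x.length
    (fun y => mk (update v d y) (update (update w c (x.drop y)) t
      (((List.range y).flatMap fun y => b.eval (d + 1) (update v d y)).reverse ++ w t)))
    (fun y hy => by simp [update_apply, htc.symm]; omega) (by simp [update_apply, htc.symm])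
    (fun y hy => by
      refine ((popW _ _ _).seq ((hb' y (by omega) _ ?_).2.seq (pushV _ _ _))).cast
        rfl rfl (by simp) ?_ (by omega)
      · intro j hj
        rw [update_of_ne (by omega), update_of_ne (by omega), update_of_ne (by omega)]
        exact hw j (by omega)
      · funext j
        by_cases h1 : j = t <;> by_cases h2 : j = c <;>
          simp [update_apply, h1, h2, htc, htc.symm, List.range_succ])
  have h2 := loop_exec (k := 2 * d) (T := 0) (p := .pop (2 * d)) x.length
    (fun y => mk (update v d (x.length - y))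
      (update w t (((Ex.each a b).eval d v).reverse ++ w t)))
    (fun y hy => by simp; omega) (by simp)
    (fun y hy => (popV _ _ _).cast rfl rfl (by simp [Nat.sub_add_eq]) rfl le_rfl)
  have h1' := h1.cast (v₁ := v) (v₁' := update v d (x.length - 0)) (w₁ := update w c (x ++ w c))
    (w₁' := update w t (((Ex.each a b).eval d v).reverse ++ w t)) (by simp [← hd]) (by
      funext j
      by_cases h1 : j = t <;> by_cases h2 : j = c <;>
        simp [update_apply, h1, h2, htc, htc.symm, hc]) rfl (by
      funext j
      by_cases h1 : j = t <;> by_cases h2 : j = c <;>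
        simp [update_apply, h1, h2, htc, htc.symm, hc, Ex.eval, hx']) le_rfl
  refine (e1.seq (h1'.seq h2)).cast rfl rfl (by simp [← hd]) rfl ?_
  rw [← hx']
  omega

theorem good_poly (e : Ex) : ∃ P : Polynomial ℕ, Good e (fun B => P.eval B) := by
  induction e with
  | lit l =>
    refine ⟨Polynomial.C l.length, fun B d c t v w _ _ _ _ => ⟨by simp [Ex.eval], ?_⟩⟩
    exact (pushList_exec v t l w).mono (by omega)
  | var i => exact ⟨2 * Polynomial.X + 2, by simpa using good_var i⟩
  | app a b ha hb =>
    obtain ⟨P, hP⟩ := ha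
    obtain ⟨Q, hQ⟩ := hb
    exact ⟨P + Q, by simpa using good_app hP hQ⟩
  | sub a b ha hb =>
    obtain ⟨P, hP⟩ := ha
    obtain ⟨Q, hQ⟩ := hb
    exact ⟨2 * P + 2 * Q + 2, by simpa using good_sub hP hQ⟩
  | rep a b ha hb =>
    obtain ⟨P, hP⟩ := ha
    obtain ⟨Q, hQ⟩ := hb
    exact ⟨P + (P * (Q + 1) + 1), by simpa using good_rep hP hQ⟩
  | each a b ha hb =>
    obtain ⟨P, hP⟩ := ha
    obtain ⟨Q, hQ⟩ := hb
    exact ⟨P + ((P * (Q.comp (Polynomial.X + P) + 1) + 1) + (P + 1)), by
      simpa [Polynomial.eval_comp] using good_each hP hQ⟩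

/-- Unary code of a pair of numbers. -/
def encPair (p : ℕ × ℕ) : List Bool := List.replicate p.1 true ++ false :: List.replicate p.2 true

/-- The environment with two inputs. -/
def env2 (p : ℕ × ℕ) : ℕ → ℕ := fun i => if i = 0 then p.1 else if i = 1 then p.2 else 0

def parse : Cmd := .loop (2 * 1 + 1) (.test (2 * 1 + 1)
  (.seq (.pop (2 * 1 + 1)) (.push (2 * 0) true))
  (.seq (.pop (2 * 1 + 1)) (.loop (2 * 1 + 1) (.seq (.pop (2 * 1 + 1)) (.push (2 * 1) true)))))

def flush : Cmd := .loop (2 * 0 + 1) (.test (2 * 0 + 1)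
  (.seq (.pop (2 * 0 + 1)) (.push (2 * 2 + 1) true))
  (.seq (.pop (2 * 0 + 1)) (.push (2 * 2 + 1) false)))

def top (e : Ex) : Cmd := .seq parse (.seq (e.cmp 2 1 0) (.seq (.loop (2 * 0) (.pop (2 * 0)))
  (.seq (.loop (2 * 1) (.pop (2 * 1))) flush)))

lemma parse_exec (p : ℕ × ℕ) : Exec parse (mk (fun _ => 0) (update (fun _ => []) 1 (encPair p)))
    (mk (env2 p) (fun _ => [])) (2 * p.1 + p.2 + 3) := by
  obtain ⟨n, s⟩ := p
  have h2 := loop_exec (k := 2 * 1 + 1) (T := 0)
    (p := .seq (.pop (2 * 1 + 1)) (.push (2 * 1) true)) s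
    (fun y => mk (env2 (n, y)) (update (fun _ => []) 1 (List.replicate (s - y) true)))
    (fun y hy => by rw [mk_odd]; simp; omega) (by rw [mk_odd]; simp)
    (fun y hy => by
      refine ((popW _ _ _).seq (pushV _ _ _)).cast rfl rfl ?_ (by simp [Nat.sub_add_eq]) le_rfl
      funext i
      by_cases h0 : i = 0 <;> by_cases h1 : i = 1 <;> simp [env2, h0, h1])
  have key : ∀ m y, m + y = n → Exec parse (mk (env2 (y, 0))
      (update (fun _ => []) 1 (encPair (m, s)))) (mk (env2 (n, s)) (fun _ => []))
      (2 * m + s + 3) := by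
    intro m
    induction m with
    | zero =>
      intro y hy
      obtain rfl : y = n := by omega
      have h3 := ((popW (env2 (y, 0)) (update (fun _ => []) 1 (encPair (0, s))) 1).cast
        (w₁' := update (fun _ => []) 1 (List.replicate (s - 0) true)) rfl rfl rfl
        (by simp [encPair]) le_rfl).seq h2
      have h4 := Exec.testF (k := 2 * 1 + 1) (p := .seq (.pop (2 * 1 + 1)) (.push (2 * 0) true))
        (by rw [mk_odd]; simp [encPair]) h3
      exact (Exec.loop1 (by rw [mk_odd]; simp [encPair]) h4
        (Exec.loop0 (by rw [mk_odd]; simp))).cast rfl rfl rfl (by simp) (by omega)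
    | succ m ih =>
      intro y hy
      have h3 := ((popW (env2 (y, 0)) (update (fun _ => []) 1 (encPair (m + 1, s))) 1).seq
        (pushV _ _ 0)).cast (v₁' := env2 (y + 1, 0))
        (w₁' := update (fun _ => []) 1 (encPair (m, s))) rfl rfl (by
          funext i
          by_cases h0 : i = 0 <;> simp [env2, h0])
        (by simp [encPair, List.replicate_succ]) le_rfl
      have h4 := Exec.testT (k := 2 * 1 + 1) (q := .seq (.pop (2 * 1 + 1))
        (.loop (2 * 1 + 1) (.seq (.pop (2 * 1 + 1)) (.push (2 * 1) true))))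
        (by rw [mk_odd]; simp [encPair, List.replicate_succ]) h3
      exact (Exec.loop1 (by rw [mk_odd]; simp [encPair]) h4 (ih (y + 1) (by omega))).mono
        (by omega)
  exact (key n 0 rfl).cast (by funext i; simp [env2]) rfl rfl rfl le_rfl

lemma flush_exec (v : ℕ → ℕ) : ∀ (l l' : List Bool),
    Exec flush (mk v (update (update (fun _ => []) 0 l) 2 l'))
      (mk v (update (fun _ => []) 2 (l.reverse ++ l'))) (l.length + 1)
  | [], l' => (Exec.loop0 (by rw [mk_odd]; simp)).cast rfl rfl rfl (by simp) le_rfl
  | b :: l, l' => by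
    have h3 := ((popW v (update (update (fun _ => []) 0 (b :: l)) 2 l') 0).seq
      (pushW _ _ 2 b)).cast (w₁' := update (update (fun _ => []) 0 l) 2 (b :: l')) rfl rfl rfl (by
        funext j
        by_cases h0 : j = 0 <;> by_cases h2 : j = 2 <;> simp [h0, h2]) le_rfl
    have ih := flush_exec v l (b :: l')
    cases b with
    | true =>
      exact (Exec.loop1 (by rw [mk_odd]; simp) (Exec.testT (by rw [mk_odd]; simp) h3) ih).cast
        rfl rfl rfl (by simp) (by simp)
    | false =>
      exact (Exec.loop1 (by rw [mk_odd]; simp) (Exec.testF (by rw [mk_odd]; simp) h3) ih).cast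
        rfl rfl rfl (by simp) (by simp)

lemma mk_zero (j : ℕ) (l : List Bool) :
    mk (fun _ => 0) (update (fun _ => []) j l) = update (fun _ => []) (2 * j + 1) l := by
  rw [← update_mk_odd]
  congr 1
  funext k
  simp [mk]

lemma top_exec (e : Ex) : ∃ P : Polynomial ℕ, ∀ p : ℕ × ℕ,
    Exec (top e) (update (fun _ => []) 3 (encPair p)) (update (fun _ => []) 5 (e.eval 2 (env2 p)))
      (P.eval (encPair p).length) := by
  obtain ⟨P, hP⟩ := good_poly e
  refine ⟨2 * P + 4 * Polynomial.X + 6, fun p => ?_⟩
  have hl : (encPair p).length = p.1 + p.2 + 1 := by simp [encPair]; omega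
  obtain ⟨l1, e1⟩ := hP (encPair p).length 2 1 0 (env2 p) (fun _ => [])
    (fun i => by rw [hl, env2]; split_ifs <;> omega)
    (fun i hi => by rw [env2, if_neg (by omega), if_neg (by omega)]) (fun _ _ => rfl) (by omega)
  generalize e.eval 2 (env2 p) = out at l1 e1 ⊢
  obtain ⟨n, s⟩ := p
  have h1 := loop_exec (k := 2 * 0) (T := 0) (p := .pop (2 * 0)) n
    (fun y => mk (env2 (n - y, s)) (update (fun _ => []) 0 (out.reverse ++ [])))
    (fun y hy => by rw [mk_even]; simp [env2]; omega) (by rw [mk_even]; simp [env2])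
    (fun y hy => (popV _ _ _).cast rfl rfl (by
      funext i
      by_cases h0 : i = 0 <;> simp [env2, h0, Nat.sub_add_eq]) rfl le_rfl)
  have h2 := loop_exec (k := 2 * 1) (T := 0) (p := .pop (2 * 1)) s
    (fun y => mk (env2 (n - n, s - y)) (update (fun _ => []) 0 (out.reverse ++ [])))
    (fun y hy => by rw [mk_even]; simp [env2]; omega) (by rw [mk_even]; simp [env2])
    (fun y hy => (popV _ _ _).cast rfl rfl (by
      funext i
      by_cases h0 : i = 0 <;> by_cases h1 : i = 1 <;> simp [env2, h0, h1, Nat.sub_add_eq])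
      rfl le_rfl)
  have h3 := (flush_exec (fun _ => 0) out.reverse []).cast (v₁ := env2 (n - n, s - s))
    (w₁ := update (fun _ => []) 0 (out.reverse ++ [])) (w₁' := update (fun _ => []) 2 out)
    (by funext i; simp [env2]) (by
      funext j
      by_cases h2 : j = 2 <;> simp [h2]) rfl (by simp) le_rfl
  have h4 := (parse_exec (n, s)).seq (e1.seq (h1.seq (h2.seq h3)))
  rw [mk_zero, mk_zero] at h4
  refine h4.mono ?_
  simp only [hl] at l1 ⊢
  simp only [Polynomial.eval_add, Polynomial.eval_mul, Polynomial.eval_ofNat, Polynomial.eval_X,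
    List.length_reverse]
  omega

/-- Every expression in two unary inputs is computable in polynomial time by a `TM2` machine all
of whose stacks have the alphabet `Bool`. -/
theorem ex_polytime (e : Ex) (f : ℕ × ℕ → List Bool) (hf : ∀ p, f p = e.eval 2 (env2 p)) :
    ∃ M : TM2ComputableInPolyTime encPair id f, ∀ k, Finite (M.tm.Γ k) := by
  obtain ⟨P, hP⟩ := top_exec e
  refine ⟨⟨⟨machine (top e) (max (top e).bd 5) 3 5, Equiv.refl _, Equiv.refl _⟩, P + 1,
    fun p => ?_⟩, fun k => (inferInstance : Finite Bool)⟩
  have h := machine_outputs (R := max (top e).bd 5) (le_max_left _ _) (by omega) (by omega) (hP p)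
  have e1 : ∀ l : List Bool, List.map (Equiv.refl Bool).invFun l = l := fun l => List.map_id l
  rw [← hf, ← e1 (encPair p), ← e1 (f p), List.length_map] at h
  rw [Polynomial.eval_add, Polynomial.eval_one]
  exact h.some

end Vale.Agent.TM
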