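import Mathlib

/-! A small structured stack language and its compilation to `TM2` machines. -/

namespace Vale.Agent.TM

open Turing Function

/-- Structured programs over stacks of bits indexed by `ℕ`. -/
inductive Cmd
  | skip
  | push (k : ℕ) (b : Bool)
  | pop (k : ℕ)
  | seq (p q : Cmd)
  | loop (k : ℕ) (p : Cmd)
  | test (k : ℕ) (p q : Cmd)

abbrev St := ℕ → List Bool

/-- Big-step semantics with a bound on the number of jumps. -/
inductive Exec : Cmd → St → St → ℕ → Prop
  | skip (S : St) : Exec .skip S S 0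
  | push (k : ℕ) (b : Bool) (S : St) : Exec (.push k b) S (update S k (b :: S k)) 0
  | pop (k : ℕ) (S : St) : Exec (.pop k) S (update S k (S k).tail) 0
  | seq {p q : Cmd} {S S' S'' : St} {t t' : ℕ} :
      Exec p S S' t → Exec q S' S'' t' → Exec (.seq p q) S S'' (t + t')
  | loop0 {k : ℕ} {p : Cmd} {S : St} : S k = [] → Exec (.loop k p) S S 1
  | loop1 {k : ℕ} {p : Cmd} {S S' S'' : St} {t t' : ℕ} :
      S k ≠ [] → Exec p S S' t → Exec (.loop k p) S' S'' t' → Exec (.loop k p) S S'' (t + t' + 1)
  | testT {k : ℕ} {p q : Cmd} {S S' : St} {t : ℕ} :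
      (S k).head? = some true → Exec p S S' t → Exec (.test k p q) S S' t
  | testF {k : ℕ} {p q : Cmd} {S S' : St} {t : ℕ} :
      (S k).head? ≠ some true → Exec q S S' t → Exec (.test k p q) S S' t
  | mono {p : Cmd} {S S' : St} {t t' : ℕ} : Exec p S S' t → t ≤ t' → Exec p S S' t'

/-- Largest stack index used. -/
def Cmd.bd : Cmd → ℕ
  | .skip => 0
  | .push k _ => k
  | .pop k => k
  | .seq p q => max p.bd q.bd
  | .loop k p => max k p.bd
  | .test k p q => max k (max p.bd q.bd)

/-- Jump labels of a program. -/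
def Lab : Cmd → Type
  | .skip => Empty
  | .push _ _ => Empty
  | .pop _ => Empty
  | .seq p q => Lab p ⊕ Lab q
  | .loop _ p => Option (Lab p)
  | .test _ p q => Lab p ⊕ Lab q

@[reducible] def labFintype : (p : Cmd) → Fintype (Lab p)
  | .skip => inferInstanceAs (Fintype Empty)
  | .push _ _ => inferInstanceAs (Fintype Empty)
  | .pop _ => inferInstanceAs (Fintype Empty)
  | .seq p q => @instFintypeSum _ _ (labFintype p) (labFintype q)
  | .loop _ p => @instFintypeOption _ (labFintype p)
  | .test _ p q => @instFintypeSum _ _ (labFintype p) (labFintype q)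

abbrev Stm (R : ℕ) (Λ : Type) := TM2.Stmt (fun _ : Fin (R + 1) => Bool) Λ Bool

def reg (R k : ℕ) : Fin (R + 1) := if h : k < R + 1 then ⟨k, h⟩ else 0

def res (R : ℕ) (S : St) : Fin (R + 1) → List Bool := fun k => S k.1

lemma res_reg {R k : ℕ} (h : k ≤ R) (S : St) : res R S (reg R k) = S k := by
  simp [res, reg, Nat.lt_succ_of_le h]

lemma res_update {R k : ℕ} (h : k ≤ R) (S : St) (l : List Bool) :
    update (res R S) (reg R k) l = res R (update S k l) := by
  funext j
  by_cases hj : j = reg R k
  · subst hj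
    rw [update_self, res_reg h, update_self]
  · rw [update_of_ne hj]
    have : j.1 ≠ k := by
      intro h'
      apply hj
      simp [reg, Nat.lt_succ_of_le h, Fin.ext_iff, h']
    simp [res, update_of_ne this]

variable {R : ℕ} {Λ : Type}

def comp : (p : Cmd) → (Lab p → Λ) → Stm R Λ → Stm R Λ
  | .skip, _, c => c
  | .push k b, _, c => .push (reg R k) (fun _ => b) c
  | .pop k, _, c => .pop (reg R k) (fun v _ => v) c
  | .seq p q, e, c => comp p (fun l => e (Sum.inl l)) (comp q (fun l => e (Sum.inr l)) c)
  | .loop _ _, e, _ => .goto (fun _ => e none)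
  | .test k p q, e, c => .peek (reg R k) (fun _ x => decide (x = some true))
      (.branch id (comp p (fun l => e (Sum.inl l)) c) (comp q (fun l => e (Sum.inr l)) c))

def table : (p : Cmd) → (Lab p → Λ) → Stm R Λ → Lab p → Stm R Λ
  | .skip, _, c => fun _ => c
  | .push _ _, _, c => fun _ => c
  | .pop _, _, c => fun _ => c
  | .seq p q, e, c => fun l => Sum.elim
      (table p (fun l => e (Sum.inl l)) (comp q (fun l => e (Sum.inr l)) c))
      (table q (fun l => e (Sum.inr l)) c) l
  | .loop k p, e, c => fun l => Option.elim l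
      (.peek (reg R k) (fun _ x => x.isSome)
        (.branch id (comp p (fun l => e (some l)) (.goto fun _ => e none)) c))
      (table p (fun l => e (some l)) (.goto fun _ => e none))
  | .test _ p q, e, c => fun l => Sum.elim
      (table p (fun l => e (Sum.inl l)) c) (table q (fun l => e (Sum.inr l)) c) l

/-- `Run m a b t`: the machine goes from `a` to `b` in at most `t` steps. -/
def Run (m : Λ → Stm R Λ) (a b : TM2.Cfg (fun _ : Fin (R + 1) => Bool) Λ Bool) (t : ℕ) : Prop :=
  ∃ j ≤ t, (flip bind (TM2.step m))^[j] (some a) = some b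

lemma Run.refl (m : Λ → Stm R Λ) (a) : Run m a a 0 := ⟨0, le_rfl, rfl⟩

lemma Run.trans {m : Λ → Stm R Λ} {a b c t t'} (h : Run m a b t) (h' : Run m b c t') :
    Run m a c (t + t') := by
  obtain ⟨j, hj, e⟩ := h
  obtain ⟨j', hj', e'⟩ := h'
  exact ⟨j' + j, by omega, by rw [iterate_add_apply, e, e']⟩

lemma Run.mono {m : Λ → Stm R Λ} {a b t t'} (h : Run m a b t) (ht : t ≤ t') : Run m a b t' := by
  obtain ⟨j, hj, e⟩ := h
  exact ⟨j, by omega, e⟩

lemma Run.jump (m : Λ → Stm R Λ) (l : Λ) (v : Bool) (S : Fin (R + 1) → List Bool) :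
    Run m ⟨some l, v, S⟩ (TM2.stepAux (m l) v S) 1 := ⟨1, le_rfl, rfl⟩

theorem exec_run {p : Cmd} {S S' : St} {t : ℕ} (h : Exec p S S' t) (m : Λ → Stm R Λ) :
    p.bd ≤ R → ∀ (e : Lab p → Λ) (c : Stm R Λ), (∀ l, m (e l) = table p e c l) → ∀ v, ∃ v',
      Run m (TM2.stepAux (comp p e c) v (res R S)) (TM2.stepAux c v' (res R S')) t := by
  induction h with
  | skip S => intro _ e c _ v; exact ⟨v, Run.refl _ _⟩
  | push k b S =>
    intro hb e c _ v
    refine ⟨v, ?_⟩
    simp only [comp, TM2.stepAux]
    have hb' : k ≤ R := hb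
    rw [res_reg hb', res_update hb']
    exact Run.refl _ _
  | pop k S =>
    intro hb e c _ v
    refine ⟨v, ?_⟩
    simp only [comp, TM2.stepAux]
    have hb' : k ≤ R := hb
    rw [res_reg hb', res_update hb']
    exact Run.refl _ _
  | @seq p q S S' S'' t t' _ _ ih1 ih2 =>
    intro hb e c hm v
    have hb' : max p.bd q.bd ≤ R := hb
    obtain ⟨v1, h1⟩ := ih1 (by omega) (fun l => e (Sum.inl l))
      (comp q (fun l => e (Sum.inr l)) c) (fun l => hm (Sum.inl l)) v
    obtain ⟨v2, h2⟩ := ih2 (by omega) (fun l => e (Sum.inr l)) c (fun l => hm (Sum.inr l)) v1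
    exact ⟨v2, h1.trans h2⟩
  | @loop0 k p S hk =>
    intro hb e c hm v
    have hb' : max k p.bd ≤ R := hb
    refine ⟨false, ?_⟩
    have h1 := Run.jump m (e none) v (res R S)
    rw [hm none] at h1
    simp only [table, Option.elim, TM2.stepAux] at h1
    rw [res_reg (by omega), hk] at h1
    exact h1
  | @loop1 k p S S' S'' t t' hk _ _ ih1 ih2 =>
    intro hb e c hm v
    have hb' : max k p.bd ≤ R := hb
    have h1 := Run.jump m (e none) v (res R S)
    rw [hm none] at h1
    simp only [table, Option.elim, TM2.stepAux] at h1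
    rw [res_reg (by omega)] at h1
    have hs : (S k).head?.isSome = true := by
      cases hS : S k with
      | nil => exact absurd hS hk
      | cons a l => rfl
    rw [hs] at h1
    obtain ⟨v1, h2⟩ := ih1 (by omega) (fun l => e (some l)) (.goto fun _ => e none)
      (fun l => hm (some l)) true
    obtain ⟨v2, h3⟩ := ih2 hb e c hm v1
    exact ⟨v2, ((h1.trans h2).trans h3).mono (by omega)⟩
  | @testT k p q S S' t hk _ ih =>
    intro hb e c hm v
    have hb' : max k (max p.bd q.bd) ≤ R := hb
    obtain ⟨v1, h1⟩ := ih (by omega) (fun l => e (Sum.inl l)) c (fun l => hm (Sum.inl l)) true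
    refine ⟨v1, ?_⟩
    simp only [comp, TM2.stepAux]
    rw [res_reg (by omega), hk]
    exact h1
  | @testF k p q S S' t hk _ ih =>
    intro hb e c hm v
    have hb' : max k (max p.bd q.bd) ≤ R := hb
    obtain ⟨v1, h1⟩ := ih (by omega) (fun l => e (Sum.inr l)) c (fun l => hm (Sum.inr l)) false
    refine ⟨v1, ?_⟩
    simp only [comp, TM2.stepAux]
    rw [res_reg (by omega), decide_eq_false hk]
    exact h1
  | mono _ ht ih =>
    intro hb e c hm v
    obtain ⟨v1, h1⟩ := ih hb e c hm v
    exact ⟨v1, h1.mono ht⟩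

/-- The final statement. -/
def fin (R : ℕ) (Λ : Type) : Stm R Λ := .load (fun _ => false) .halt

/-- The machine of a program with input stack `i` and output stack `o`. -/
def machine (p : Cmd) (R i o : ℕ) : FinTM2 where
  K := Fin (R + 1)
  k₀ := reg R i
  k₁ := reg R o
  Γ _ := Bool
  Λ := Option (Lab p)
  main := none
  ΛFin := @instFintypeOption _ (labFintype p)
  σ := Bool
  initialState := false
  m l := Option.elim l (comp p some (fin R _)) (table p some (fin R _))

lemma res_single {R k : ℕ} (h : k ≤ R) (l : List Bool) (j : Fin (R + 1)) :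
    res R (update (fun _ => []) k l) j = if j = reg R k then l else [] := by
  have := res_update h (fun _ => []) l
  rw [← this]
  by_cases hj : j = reg R k
  · subst hj; simp
  · simp [hj, res]

theorem machine_outputs {p : Cmd} {R i o : ℕ} (hp : p.bd ≤ R) (hi : i ≤ R) (ho : o ≤ R)
    {l l' : List Bool} {t : ℕ}
    (h : Exec p (update (fun _ => []) i l) (update (fun _ => []) o l') t) :
    Nonempty (TM2OutputsInTime (machine p R i o) l (some l') (t + 1)) := by
  obtain ⟨v', h1⟩ := exec_run (R := R) h (machine p R i o).m hp some (fin R _) (fun _ => rfl) false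
  have h0 := Run.jump (R := R) (machine p R i o).m none false
    (res R (update (fun _ => []) i l))
  obtain ⟨j, hj, e⟩ := h0.trans h1
  have e1 : initList (machine p R i o) l = ⟨some none, false, res R (update (fun _ => []) i l)⟩ := by
    unfold initList
    congr 1
    funext k
    refine Eq.trans ?_ (res_single hi l k).symm
    by_cases hk : k = reg R i
    · subst hk
      exact (dif_pos rfl).trans (if_pos rfl).symm
    · exact (dif_neg hk).trans (if_neg hk).symm
  have e2 : haltList (machine p R i o) l' = ⟨none, false, res R (update (fun _ => []) o l')⟩ := by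
    unfold haltList
    congr 1
    funext k
    refine Eq.trans ?_ (res_single ho l' k).symm
    by_cases hk : k = reg R o
    · subst hk
      exact (dif_pos rfl).trans (if_pos rfl).symm
    · exact (dif_neg hk).trans (if_neg hk).symm
  refine ⟨⟨⟨j, ?_⟩, hj.trans (Nat.add_comm 1 t).le⟩⟩
  rw [e1]
  exact e.trans (congrArg some e2.symm)

end Vale.Agent.TM
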